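import Vale.Agent.N321.Lower

/-!
Worst-case trace reconstruction: the lower bound `exp (c (log n) ^ (1 + 1/33))` on the number of
traces, at a fixed deletion probability and uniformly in the range `q ^ 3 log n ≥ C`.
-/

namespace Vale.Agent.Results.P321.A0Exponent

open Vale.Agent.P321 Vale.Agent.P321Z Vale.Agent.P321W Filter
open scoped unitInterval

theorem result :
    (∀ q : I, 0 < (q : ℝ) → ∃ c : ℝ, 0 < c ∧ ∀ᶠ n : ℕ in atTop,
      (⌈Real.exp (c * (Real.log n) ^ (1 + 1 / 33 : ℝ))⌉₊ : ℕ∞) ≤ T q n) ∧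
    ∃ c C : ℝ, 0 < c ∧ ∀ (n : ℕ) (q : I) (B : ℝ), C ≤ (q : ℝ) ^ 3 * Real.log n →
      B = c * Real.log n * ((q : ℝ) ^ 3 * Real.log n) ^ (1 / 33 : ℝ) →
      minTV q n ≤ ENNReal.ofReal (Real.exp (-B)) ∧
      ∀ s : ℝ, Real.exp (-B) ≤ s → (⌈Real.exp B⌉₊ : ℕ∞) ≤ Ts q s n := by
  obtain ⟨c, C, hc, h⟩ := N321.lower_cube
  refine ⟨fun q h0 => ?_, c, C, hc, fun n q B hq hB => hB ▸ h n q hq⟩
  have hq3 : 0 < (q : ℝ) ^ 3 := by positivity
  refine ⟨c * ((q : ℝ) ^ 3) ^ (1 / 33 : ℝ), by positivity, ?_⟩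
  have hlog : Tendsto (fun n : ℕ => Real.log (n : ℝ)) atTop atTop :=
    Real.tendsto_log_atTop.comp tendsto_natCast_atTop_atTop
  filter_upwards [hlog.eventually_ge_atTop (max C 1 / (q : ℝ) ^ 3),
    hlog.eventually_ge_atTop (1 / c)] with n g2 g3
  have hL0 : 0 < Real.log (n : ℝ) := lt_of_lt_of_le (by positivity) g3
  rw [div_le_iff₀ hq3, mul_comm] at g2
  have e0 : ENNReal.ofReal (2 / 3) = 2 / 3 := by
    rw [ENNReal.ofReal_div_of_pos (by norm_num)]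
    simp
  have e1 : T q n = Ts q (2 / 3) n := by
    unfold T Ts Reconstructs Succeeds
    rw [e0]
  have e : c * ((q : ℝ) ^ 3) ^ (1 / 33 : ℝ) * (Real.log n) ^ (1 + 1 / 33 : ℝ)
      = c * Real.log n * ((q : ℝ) ^ 3 * Real.log n) ^ (1 / 33 : ℝ) := by
    rw [Real.mul_rpow hq3.le hL0.le, Real.rpow_add hL0, Real.rpow_one]
    ring
  rw [e1, e]
  refine (h n q ((le_max_left _ _).trans g2)).2 _ ?_
  have f1 : 1 ≤ ((q : ℝ) ^ 3 * Real.log n) ^ (1 / 33 : ℝ) :=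
    Real.one_le_rpow ((le_max_right _ _).trans g2) (by norm_num)
  have f2 := mul_le_mul_of_nonneg_left f1 (mul_nonneg hc.le hL0.le)
  rw [div_le_iff₀ hc] at g3
  have a2 : Real.exp (-1) ≤ 1 / 2 := by
    rw [Real.exp_neg, ← one_div]
    apply one_div_le_one_div_of_le (by norm_num)
    have := Real.add_one_le_exp (1 : ℝ)
    linarith
  have a3 : Real.exp (-(c * Real.log n * ((q : ℝ) ^ 3 * Real.log n) ^ (1 / 33 : ℝ)))
      ≤ Real.exp (-1) := Real.exp_le_exp.2 (by linarith)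
  linarith

end Vale.Agent.Results.P321.A0Exponent
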